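import Mathlib

/-!
Bit-parallel sieve computation used for the diagonal-monotone walk theorem of P015.
Layers are the anti-diagonals `x + y = l` (`l` odd); a layer is stored as a bit mask indexed by `x`.
-/

namespace Vale.Agent.Lib.P015.Diag

/-- number of bits of a layer mask -/
def Wd : ℕ := 97500

def full : ℕ := 2 ^ Wd - 1

/-- `2 ^ k` bits spaced `p` apart -/
def rep (p : ℕ) : ℕ → ℕ
  | 0 => 1
  | k + 1 => rep p k ||| (rep p k <<< (p * 2 ^ k))

/-- positions `x` of the layer `x + y = l` that are sieved out by `3, 5, 13, 17, 29` -/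
def blockedMask (l : ℕ) : ℕ :=
  (rep 5 15 <<< ((2 * l) % 5)) ||| (rep 5 15 <<< ((4 * l) % 5)) |||
  (rep 13 13 <<< ((3 * l) % 13)) ||| (rep 13 13 <<< ((11 * l) % 13)) |||
  (rep 17 13 <<< ((7 * l) % 17)) ||| (rep 17 13 <<< ((11 * l) % 17)) |||
  (rep 29 12 <<< ((9 * l) % 29)) ||| (rep 29 12 <<< ((21 * l) % 29)) |||
  (if l % 3 = 0 then rep 3 15 else 0)

def openMask (l : ℕ) : ℕ := full ^^^ (blockedMask l &&& full)

def stepMask (c p l : ℕ) : ℕ := ((c ||| (c <<< 1) ||| (c <<< 2)) ||| (p <<< 2)) &&& openMask l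

def loop : ℕ → ℕ → ℕ → ℕ → ℕ × ℕ
  | 0, _, c, p => (c, p)
  | n + 1, l, c, p => loop n (l + 2) (stepMask c p l) c

set_option maxRecDepth 100000 in
theorem loop_extinct : loop 620 5 (openMask 3) (openMask 1) = (0, 0) := by decide +kernel

def alive : ℕ → ℕ
  | 0 => openMask 1
  | 1 => openMask 3
  | j + 2 => stepMask (alive (j + 1)) (alive j) (2 * (j + 2) + 1)

lemma loop_alive (n : ℕ) : ∀ j, loop n (2 * j + 5) (alive (j + 1)) (alive j)
    = (alive (j + n + 1), alive (j + n)) := by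
  induction n with
  | zero => intro j; rfl
  | succ n ih =>
    intro j
    have h1 : loop (n + 1) (2 * j + 5) (alive (j + 1)) (alive j)
        = loop n (2 * (j + 1) + 5) (alive (j + 1 + 1)) (alive (j + 1)) := rfl
    rw [h1, ih (j + 1)]
    have e1 : j + 1 + n + 1 = j + (n + 1) + 1 := by ring
    have e2 : j + 1 + n = j + (n + 1) := by ring
    rw [e1, e2]

lemma alive_620 : alive 620 = 0 := by
  have h := loop_alive 620 0
  have h2 : loop 620 (2 * 0 + 5) (alive (0 + 1)) (alive 0) = (0, 0) := loop_extinct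
  rw [h2] at h
  have := congrArg Prod.snd h
  simpa using this.symm

lemma alive_621 : alive 621 = 0 := by
  have h := loop_alive 620 0
  have h2 : loop 620 (2 * 0 + 5) (alive (0 + 1)) (alive 0) = (0, 0) := loop_extinct
  rw [h2] at h
  have := congrArg Prod.fst h
  simpa using this.symm

lemma rep_dvd (p : ℕ) : ∀ k i, (rep p k).testBit i = true → p ∣ i := by
  intro k
  induction k with
  | zero =>
    intro i h
    have : i = 0 := Nat.testBit_one_eq_true_iff_self_eq_zero.1 h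
    rw [this]; exact dvd_zero _
  | succ k ih =>
    intro i h
    have h' : (rep p k ||| (rep p k <<< (p * 2 ^ k))).testBit i = true := h
    rw [Nat.testBit_lor, Bool.or_eq_true] at h'
    rcases h' with h1 | h1
    · exact ih i h1
    · rw [Nat.testBit_shiftLeft, Bool.and_eq_true, decide_eq_true_eq] at h1
      have h2 := ih _ h1.2
      have h3 : i = (i - p * 2 ^ k) + p * 2 ^ k := (Nat.sub_add_cancel h1.1).symm
      rw [h3]
      exact dvd_add h2 (dvd_mul_right _ _)

lemma pat_dvd (p k o i : ℕ) (h : (rep p k <<< o).testBit i = true) : o ≤ i ∧ p ∣ i - o := by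
  rw [Nat.testBit_shiftLeft, Bool.and_eq_true, decide_eq_true_eq] at h
  exact ⟨h.1, rep_dvd p k _ h.2⟩

lemma arith (p κ l X : ℕ) (hκ : (p : ℤ) ∣ 2 * (κ : ℤ) ^ 2 - 2 * κ + 1)
    (h : (κ * l) % p ≤ X ∧ p ∣ X - (κ * l) % p) :
    (p : ℤ) ∣ (X : ℤ) ^ 2 + ((l : ℤ) - X) ^ 2 := by
  obtain ⟨h1, t, ht⟩ := h
  have hX : X = (κ * l) % p + p * t := by omega
  have hkl : κ * l = p * (κ * l / p) + (κ * l) % p := (Nat.div_add_mod _ _).symm
  obtain ⟨u, hu⟩ : ∃ u : ℕ, u = κ * l / p := ⟨_, rfl⟩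
  obtain ⟨o, ho⟩ : ∃ o : ℕ, o = (κ * l) % p := ⟨_, rfl⟩
  rw [← hu, ← ho] at hkl
  rw [← ho] at hX
  have hXZ : (X : ℤ) = κ * l + p * ((t : ℤ) - u) := by
    have a1 : (X : ℤ) = o + p * t := by exact_mod_cast hX
    have a2 : (κ : ℤ) * l = p * u + o := by exact_mod_cast hkl
    rw [a1]; linarith
  obtain ⟨c, hc⟩ := hκ
  refine ⟨(l : ℤ) ^ 2 * c + ((t : ℤ) - u) * (4 * κ * l + 2 * p * ((t : ℤ) - u) - 2 * l), ?_⟩
  rw [hXZ]
  have : ((κ : ℤ) * l + p * ((t : ℤ) - u)) ^ 2 + ((l : ℤ) - (κ * l + p * ((t : ℤ) - u))) ^ 2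
      = (l : ℤ) ^ 2 * (2 * (κ : ℤ) ^ 2 - 2 * κ + 1)
        + p * (((t : ℤ) - u) * (4 * κ * l + 2 * p * ((t : ℤ) - u) - 2 * l)) := by ring
  rw [this, hc]
  ring

/-- the site `(X, l - X)` survives the sieve by `3, 5, 13, 17, 29` -/
def OpenN (X l : ℕ) : Prop :=
  ∀ p : ℕ, p = 3 ∨ p = 5 ∨ p = 13 ∨ p = 17 ∨ p = 29 → ¬ (p : ℤ) ∣ (X : ℤ) ^ 2 + ((l : ℤ) - X) ^ 2

lemma blocked_sound (l X : ℕ) (h : (blockedMask l).testBit X = true) : ¬ OpenN X l := by
  intro hopen
  unfold blockedMask at h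
  simp only [Nat.testBit_lor, Bool.or_eq_true] at h
  rcases h with (((((((h | h) | h) | h) | h) | h) | h) | h) | h
  · exact hopen 5 (by simp) (arith 5 2 l X (by norm_num) (pat_dvd _ _ _ _ h))
  · exact hopen 5 (by simp) (arith 5 4 l X (by norm_num) (pat_dvd _ _ _ _ h))
  · exact hopen 13 (by simp) (arith 13 3 l X (by norm_num) (pat_dvd _ _ _ _ h))
  · exact hopen 13 (by simp) (arith 13 11 l X (by norm_num) (pat_dvd _ _ _ _ h))
  · exact hopen 17 (by simp) (arith 17 7 l X (by norm_num) (pat_dvd _ _ _ _ h))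
  · exact hopen 17 (by simp) (arith 17 11 l X (by norm_num) (pat_dvd _ _ _ _ h))
  · exact hopen 29 (by simp) (arith 29 9 l X (by norm_num) (pat_dvd _ _ _ _ h))
  · exact hopen 29 (by simp) (arith 29 21 l X (by norm_num) (pat_dvd _ _ _ _ h))
  · by_cases h3 : l % 3 = 0
    · rw [if_pos h3] at h
      have hX : 3 ∣ X := rep_dvd 3 15 X h
      have hl : 3 ∣ l := Nat.dvd_of_mod_eq_zero h3
      have hXZ : (3 : ℤ) ∣ (X : ℤ) := by exact_mod_cast hX
      have hlZ : (3 : ℤ) ∣ (l : ℤ) := by exact_mod_cast hl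
      refine hopen 3 (by simp) ?_
      have h1 : (3 : ℤ) ∣ (X : ℤ) ^ 2 := dvd_pow hXZ (by norm_num)
      have h2 : (3 : ℤ) ∣ ((l : ℤ) - X) ^ 2 := dvd_pow (dvd_sub hlZ hXZ) (by norm_num)
      exact_mod_cast dvd_add h1 h2
    · rw [if_neg h3] at h
      simp at h

lemma open_bit (l X : ℕ) (hX : X < Wd) (h : OpenN X l) : (openMask l).testBit X = true := by
  unfold openMask full
  rw [Nat.testBit_xor, Nat.testBit_land, Nat.testBit_two_pow_sub_one]
  have hb : (blockedMask l).testBit X = false := by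
    by_contra hc
    exact blocked_sound l X (by simpa using hc) h
  rw [hb]
  simp [hX]

lemma step_bit1 (c p l X d : ℕ) (hd : d ≤ 2) (hc : c.testBit X = true) (hX : X + d < Wd)
    (h : OpenN (X + d) l) : (stepMask c p l).testBit (X + d) = true := by
  unfold stepMask
  rw [Nat.testBit_land, open_bit l _ hX h, Bool.and_true]
  simp only [Nat.testBit_lor, Nat.testBit_shiftLeft, Bool.or_eq_true, Bool.and_eq_true,
    decide_eq_true_eq]
  left
  interval_cases d
  · left; left; simpa using hc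
  · left; right; exact ⟨by omega, by simpa using hc⟩
  · right; exact ⟨by omega, by simpa using hc⟩

lemma step_bit2 (c p l X : ℕ) (hp : p.testBit X = true) (hX : X + 2 < Wd)
    (h : OpenN (X + 2) l) : (stepMask c p l).testBit (X + 2) = true := by
  unfold stepMask
  rw [Nat.testBit_land, open_bit l _ hX h, Bool.and_true]
  simp only [Nat.testBit_lor, Nat.testBit_shiftLeft, Bool.or_eq_true, Bool.and_eq_true,
    decide_eq_true_eq]
  right
  exact ⟨by omega, by simpa using hp⟩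

/-- The normalised statement: no infinite monotone chain of open sites starting in layers `0, 1`. -/
theorem no_chain (X j : ℕ → ℕ) (h0 : j 0 ≤ 1) (hX0 : X 0 < 96135)
    (hstep : ∀ k, (j (k + 1) = j k + 1 ∧ X k ≤ X (k + 1) ∧ X (k + 1) ≤ X k + 2) ∨
      (j (k + 1) = j k + 2 ∧ X (k + 1) = X k + 2))
    (hopen : ∀ k, OpenN (X k) (2 * j k + 1)) : False := by
  have hXb : ∀ k, X k ≤ X 0 + 2 * j k := by
    intro k
    induction k with
    | zero => omega
    | succ k ih => rcases hstep k with ⟨h1, h2, h3⟩ | ⟨h1, h2⟩ <;> omega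
  have hjk : ∀ k, k ≤ j k := by
    intro k
    induction k with
    | zero => omega
    | succ k ih => rcases hstep k with ⟨h1, h2, h3⟩ | ⟨h1, h2⟩ <;> omega
  have hbit : ∀ k, j k ≤ 621 → (alive (j k)).testBit (X k) = true := by
    intro k
    induction k with
    | zero =>
      intro _
      have hW : X 0 < Wd := by unfold Wd; omega
      have ho := hopen 0
      rcases Nat.le_one_iff_eq_zero_or_eq_one.1 h0 with h | h
      · rw [h] at ho ⊢
        exact open_bit _ _ hW ho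
      · rw [h] at ho ⊢
        exact open_bit _ _ hW ho
    | succ k ih =>
      intro hk
      have hW : X (k + 1) < Wd := by
        have := hXb (k + 1)
        unfold Wd; omega
      have ho := hopen (k + 1)
      rcases hstep k with ⟨h1, h2, h3⟩ | ⟨h1, h2⟩
      · have ihk := ih (by omega)
        obtain ⟨d, hd⟩ : ∃ d, X (k + 1) = X k + d := ⟨X (k + 1) - X k, by omega⟩
        rw [h1] at ho ⊢
        rw [hd] at ho hW ⊢
        rcases Nat.eq_zero_or_pos (j k) with hz | hz
        · rw [hz] at ho ⊢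
          exact open_bit _ _ hW ho
        · obtain ⟨i, hi⟩ : ∃ i, j k = i + 1 := ⟨j k - 1, by omega⟩
          rw [hi] at ho ihk ⊢
          exact step_bit1 _ _ _ _ d (by omega) ihk hW ho
      · have ihk := ih (by omega)
        rw [h1] at ho ⊢
        rw [h2] at ho hW ⊢
        exact step_bit2 _ _ _ _ ihk hW ho
  have hex : ∃ k, 620 ≤ j k := ⟨620, hjk 620⟩
  classical
  obtain ⟨k, hk, hmin⟩ : ∃ k, 620 ≤ j k ∧ ∀ i < k, j i < 620 :=
    ⟨Nat.find hex, Nat.find_spec hex, fun i hi => not_le.1 (Nat.find_min hex hi)⟩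
  have hkpos : 0 < k := by
    rcases Nat.eq_zero_or_pos k with h | h
    · rw [h] at hk; omega
    · exact h
  obtain ⟨i, hi⟩ : ∃ i, k = i + 1 := ⟨k - 1, by omega⟩
  have h1 := hmin i (by omega)
  have h2 : j k ≤ 621 := by
    rw [hi]
    rcases hstep i with ⟨a, _, _⟩ | ⟨a, _⟩ <;> omega
  have h3 := hbit k h2
  have h4 : j k = 620 ∨ j k = 621 := by omega
  rcases h4 with h | h
  · rw [h, alive_620] at h3; simp at h3
  · rw [h, alive_621] at h3; simp at h3

end Vale.Agent.Lib.P015.Diag
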