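import Mathlib
import Vale.Agent.Results.P015.StraightRegions

/-! # P015: no walk to infinity in a neighbourhood of a line whose width grows slowly -/

namespace Vale.Agent.Lib.P015.Grow

open GaussianInt

theorem growing (D A B C : ℝ) (hAB : A ^ 2 + B ^ 2 = 1) (W : ℝ → ℝ) (hmono : Monotone W)
    (hW : ∀ K : ℝ, ∃ R : ℝ, K + 2 ^ 2 ^ ((⌈D⌉₊ + 1) * (2 * ⌈2 * W R⌉₊ + 3) + 3) < R) :
    ¬ ∃ z : ℕ → GaussianInt, Function.Injective z ∧ (∀ n, Prime (z n)) ∧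
      (∀ n, dist (toComplex (z n)) (toComplex (z (n + 1))) ≤ D) ∧
      (∀ n, |A * ((z n).re : ℝ) + B * ((z n).im : ℝ) - C| ≤ W ‖toComplex (z n)‖) := by
  rintro ⟨z, hinj, hprime, hstep, hreg⟩
  have hD0 : 0 ≤ D := dist_nonneg.trans (hstep 0)
  obtain ⟨R, hR⟩ := hW (‖toComplex (z 0)‖ + D)
  obtain ⟨Bd, hBd⟩ : ∃ Bd : ℝ, Bd = 2 ^ 2 ^ ((⌈D⌉₊ + 1) * (2 * ⌈2 * W R⌉₊ + 3) + 3) := ⟨_, rfl⟩
  rw [← hBd] at hR
  have hBd0 : 0 ≤ Bd := by rw [hBd]; positivity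
  have hex : ∃ n, R < ‖toComplex (z n)‖ := by
    by_contra hcon
    push Not at hcon
    have hfin := Vale.Agent.Results.P015.StraightRegions.finite_ball 0 R
    have hsub : Set.range z ⊆ {w : GaussianInt | dist (toComplex w) 0 ≤ R} := by
      rintro _ ⟨n, rfl⟩
      have := hcon n
      simpa using this
    exact (Set.infinite_range_of_injective hinj) (hfin.subset hsub)
  classical
  let m := Nat.find hex
  have hm : R < ‖toComplex (z m)‖ := Nat.find_spec hex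
  have hlt : ∀ k < m, ‖toComplex (z k)‖ ≤ R := fun k hk => not_lt.1 (Nat.find_min hex hk)
  have hm0 : m ≠ 0 := by
    intro h0
    rw [h0] at hm
    linarith
  obtain ⟨j, hj⟩ : ∃ j, m = j + 1 := ⟨m - 1, by omega⟩
  have key := Vale.Agent.Results.P015.Corridor.result D (W R) A B C hAB j z
    (fun k _ => hprime k) (fun k _ => hstep k)
    (fun k hk => (hreg k).trans (hmono (hlt k (by omega))))
  rw [← hBd] at key
  have t1 : ‖toComplex (z (j + 1))‖ ≤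
      ‖toComplex (z 0)‖ + dist (toComplex (z 0)) (toComplex (z (j + 1))) := by
    have := dist_triangle (toComplex (z (j + 1))) (toComplex (z 0)) 0
    rw [dist_zero_right, dist_zero_right, dist_comm] at this
    linarith
  have t2 := dist_triangle (toComplex (z 0)) (toComplex (z j)) (toComplex (z (j + 1)))
  have t3 := hstep j
  rw [hj] at hm
  linarith

/-- the half-width function -/
noncomputable def wid (D : ℝ) (R : ℝ) : ℝ :=
  Real.logb 2 (Real.logb 2 (max R 4)) / (8 * ((⌈D⌉₊ : ℝ) + 1))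

theorem wid_mono (D : ℝ) : Monotone (wid D) := by
  intro R R' h
  unfold wid
  have hd : (0 : ℝ) < 8 * ((⌈D⌉₊ : ℝ) + 1) := by positivity
  apply div_le_div_of_nonneg_right _ hd.le
  have h4 : (4 : ℝ) ≤ max R 4 := le_max_right _ _
  have h1 : max R 4 ≤ max R' 4 := max_le_max h le_rfl
  have h2 : Real.logb 2 (max R 4) ≤ Real.logb 2 (max R' 4) :=
    Real.logb_le_logb_of_le one_lt_two (by linarith) h1
  have h3 : 0 < Real.logb 2 (max R 4) := Real.logb_pos one_lt_two (by linarith)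
  exact Real.logb_le_logb_of_le one_lt_two h3 h2

theorem wid_val (D : ℝ) (u : ℕ) (hu : 1 ≤ u) :
    2 * wid D ((2 : ℝ) ^ 2 ^ (4 * (⌈D⌉₊ + 1) * u)) = u := by
  unfold wid
  have hpos : 1 ≤ 4 * (⌈D⌉₊ + 1) * u := by
    have : 1 ≤ 4 * (⌈D⌉₊ + 1) := by omega
    exact Nat.mul_pos this hu
  have h2 : 2 ≤ 2 ^ (4 * (⌈D⌉₊ + 1) * u) := by
    calc 2 = 2 ^ 1 := rfl
      _ ≤ 2 ^ (4 * (⌈D⌉₊ + 1) * u) := Nat.pow_le_pow_right (by norm_num) hpos
  have h4 : (4 : ℝ) ≤ (2 : ℝ) ^ 2 ^ (4 * (⌈D⌉₊ + 1) * u) := by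
    calc (4 : ℝ) = 2 ^ 2 := by norm_num
      _ ≤ (2 : ℝ) ^ 2 ^ (4 * (⌈D⌉₊ + 1) * u) := pow_le_pow_right₀ one_le_two h2
  rw [max_eq_left h4, Real.logb_pow, Real.logb_self_eq_one one_lt_two, mul_one]
  push_cast
  rw [Real.logb_pow, Real.logb_self_eq_one one_lt_two, mul_one]
  push_cast
  have hd : ((⌈D⌉₊ : ℝ) + 1) ≠ 0 := by positivity
  field_simp
  ring

theorem wid_growth (D : ℝ) (K : ℝ) :
    ∃ R : ℝ, K + 2 ^ 2 ^ ((⌈D⌉₊ + 1) * (2 * ⌈2 * wid D R⌉₊ + 3) + 3) < R := by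
  obtain ⟨d, hd⟩ : ∃ d : ℕ, d = ⌈D⌉₊ + 1 := ⟨_, rfl⟩
  have hd1 : 1 ≤ d := by omega
  obtain ⟨u, hu⟩ : ∃ u : ℕ, u = ⌈K⌉₊ + 4 := ⟨_, rfl⟩
  have hu4 : 4 ≤ u := by omega
  have hKu : K ≤ u := by
    have := Nat.le_ceil K
    rw [hu]
    push_cast
    linarith
  refine ⟨(2 : ℝ) ^ 2 ^ (4 * (⌈D⌉₊ + 1) * u), ?_⟩
  rw [wid_val D u (by omega), Nat.ceil_natCast, ← hd]
  obtain ⟨E, hE⟩ : ∃ E : ℕ, E = d * (2 * u + 3) + 3 := ⟨_, rfl⟩
  rw [← hE]
  have hE1 : E + 1 ≤ 4 * d * u := by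
    rw [hE]
    have : 4 * d ≤ d * u := by
      rw [mul_comm]
      exact Nat.mul_le_mul_left d hu4
    nlinarith
  have hX : (u : ℝ) < (2 : ℝ) ^ 2 ^ E := by
    have h1 : u ≤ E := by
      rw [hE]
      nlinarith
    have h2 : E < 2 ^ E := Nat.lt_two_pow_self
    have h3 : 2 ^ E < 2 ^ 2 ^ E := Nat.lt_two_pow_self
    have h4 : u < 2 ^ 2 ^ E := by omega
    exact_mod_cast h4
  have hsq : ((2 : ℝ) ^ 2 ^ E) * ((2 : ℝ) ^ 2 ^ E) ≤ (2 : ℝ) ^ 2 ^ (4 * d * u) := by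
    rw [← pow_add]
    apply pow_le_pow_right₀ one_le_two
    calc 2 ^ E + 2 ^ E = 2 ^ (E + 1) := by rw [pow_succ]; ring
      _ ≤ 2 ^ (4 * d * u) := Nat.pow_le_pow_right (by norm_num) hE1
  have hu4r : (4 : ℝ) ≤ u := by exact_mod_cast hu4
  nlinarith

/-- No infinite path of `G_D` stays in the region
`dist (z, line) ≤ log₂ log₂ (max |z| 4) / (8 (⌈D⌉ + 1))`. -/
theorem loglog_region (D A B C : ℝ) (hAB : A ^ 2 + B ^ 2 = 1) :
    ¬ ∃ z : ℕ → GaussianInt, Function.Injective z ∧ (∀ n, Prime (z n)) ∧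
      (∀ n, dist (toComplex (z n)) (toComplex (z (n + 1))) ≤ D) ∧
      (∀ n, |A * ((z n).re : ℝ) + B * ((z n).im : ℝ) - C| ≤
        Real.logb 2 (Real.logb 2 (max ‖toComplex (z n)‖ 4)) / (8 * ((⌈D⌉₊ : ℝ) + 1))) :=
  growing D A B C hAB (wid D) (wid_mono D) (wid_growth D)

end Vale.Agent.Lib.P015.Grow
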